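import Vale.Agent.Helper16.KTVG.Plan

/-!
# Basic facts on pair labels for the switch chain on general graphs (problem P335)

For two graphs `G, G'` with the same degree vector that agree off the vertices `u, v`
(same pair label `labP u v`):
* every other vertex `c` has the same number of neighbours in `{u, v}` in `G` and in `G'`;
* the slot `uv` carries the same value in `G` and `G'`;
* for a second pair `{w, z}` disjoint from `{u, v}`, the number `yB` of edges between the two
  pairs is the same in `G` and `G'`.
-/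

namespace KTVG.H6

open Finset Vale.Agent.Helper13.Switch
open Classical

variable {n : ℕ}

theorem adjN_comm (G : SimpleGraph (Fin n)) (x y : Fin n) : adjN G x y = adjN G y x := by
  unfold adjN
  by_cases h : G.Adj x y
  · rw [if_pos h, if_pos h.symm]
  · rw [if_neg h, if_neg (fun h' => h h'.symm)]

theorem adjN_self (G : SimpleGraph (Fin n)) (x : Fin n) : adjN G x x = 0 := by
  unfold adjN
  rw [if_neg (G.irrefl (v := x))]

theorem adjN_le_one (G : SimpleGraph (Fin n)) (x y : Fin n) : adjN G x y ≤ 1 := by
  unfold adjN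
  split_ifs <;> omega

theorem adjN_eq_one_iff (G : SimpleGraph (Fin n)) (x y : Fin n) : adjN G x y = 1 ↔ G.Adj x y := by
  unfold adjN
  split_ifs with h <;> simp [h]

theorem adjN_eq_zero_iff (G : SimpleGraph (Fin n)) (x y : Fin n) :
    adjN G x y = 0 ↔ ¬ G.Adj x y := by
  unfold adjN
  split_ifs with h <;> simp [h]

theorem adjN_congr {G G' : SimpleGraph (Fin n)} {x y : Fin n} (h : G.Adj x y ↔ G'.Adj x y) :
    adjN G x y = adjN G' x y := by
  unfold adjN
  by_cases h1 : G.Adj x y
  · rw [if_pos h1, if_pos (h.mp h1)]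
  · rw [if_neg h1, if_neg (fun h' => h1 (h.mpr h'))]

/-- the degree is the sum of the slot values at the vertex -/
theorem degree_eq_sum (G : SimpleGraph (Fin n)) (c : Fin n) :
    G.degree c = ∑ x, adjN G c x := by
  unfold adjN
  rw [Finset.sum_boole, ← SimpleGraph.card_neighborFinset_eq_degree,
    SimpleGraph.neighborFinset_eq_filter]
  simp

/-- the sum over all vertices splits off two given vertices -/
theorem sum_split_pair {u v : Fin n} (huv : u ≠ v) (g : Fin n → ℕ) :
    ∑ x, g x = g u + g v + ∑ x ∈ (Finset.univ.erase u).erase v, g x := by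
  have h1 : v ∈ Finset.univ.erase u := Finset.mem_erase.mpr ⟨huv.symm, Finset.mem_univ _⟩
  rw [← Finset.add_sum_erase Finset.univ g (Finset.mem_univ u),
    ← Finset.add_sum_erase (Finset.univ.erase u) g h1]
  ring

/-- equal pair labels: the graphs agree on every slot avoiding `u` and `v` -/
theorem labP_adj {u v : Fin n} {G G' : SimpleGraph (Fin n)} (h : labP u v G = labP u v G')
    {x y : Fin n} (hxu : x ≠ u) (hxv : x ≠ v) (hyu : y ≠ u) (hyv : y ≠ v) :
    G.Adj x y ↔ G'.Adj x y := by
  have h1 := congrFun (congrFun h x) y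
  unfold labP labOffV slotLab Rinc at h1
  simp only [Finset.mem_insert, Finset.mem_singleton, hxu, hxv, hyu, hyv, or_self,
    not_false_eq_true, true_and] at h1
  exact h1.to_iff

/-- conversely, graphs agreeing on every slot avoiding `u` and `v` carry the same pair label -/
theorem labP_eq_of_adj {u v : Fin n} {G G' : SimpleGraph (Fin n)}
    (h : ∀ x y : Fin n, x ≠ u → x ≠ v → y ≠ u → y ≠ v → (G.Adj x y ↔ G'.Adj x y)) :
    labP u v G = labP u v G' := by
  funext x y
  unfold labP labOffV slotLab Rinc
  simp only [Finset.mem_insert, Finset.mem_singleton, eq_iff_iff]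
  constructor
  · rintro ⟨h1, h2⟩
    refine ⟨h1, ?_⟩
    push Not at h1
    exact (h x y h1.1.1 h1.1.2 h1.2.1 h1.2.2).mp h2
  · rintro ⟨h1, h2⟩
    refine ⟨h1, ?_⟩
    push Not at h1
    exact (h x y h1.1.1 h1.1.2 h1.2.1 h1.2.2).mpr h2

/-- along a pair fibre every outside vertex keeps its number of neighbours in the pair -/
theorem pairsum_eq_of_labP {d : Fin n → ℕ} {u v : Fin n} (huv : u ≠ v)
    {G G' : SimpleGraph (Fin n)} (hG : G ∈ gOmega n d) (hG' : G' ∈ gOmega n d)
    (h : labP u v G = labP u v G') {c : Fin n} (hcu : c ≠ u) (hcv : c ≠ v) :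
    adjN G c u + adjN G c v = adjN G' c u + adjN G' c v := by
  have e1 := degree_eq_sum G c
  have e2 := degree_eq_sum G' c
  rw [mem_gOmega.mp hG c, sum_split_pair huv] at e1
  rw [mem_gOmega.mp hG' c, sum_split_pair huv] at e2
  have e3 : ∑ x ∈ (Finset.univ.erase u).erase v, adjN G c x
      = ∑ x ∈ (Finset.univ.erase u).erase v, adjN G' c x := by
    apply Finset.sum_congr rfl
    intro x hx
    rw [Finset.mem_erase, Finset.mem_erase] at hx
    exact adjN_congr (labP_adj h hcu hcv hx.2.1 hx.1)
  omega

/-- along a pair fibre the slot of the pair itself is constant -/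
theorem adjN_pair_eq_of_labP {d : Fin n → ℕ} {u v : Fin n} (huv : u ≠ v)
    {G G' : SimpleGraph (Fin n)} (hG : G ∈ gOmega n d) (hG' : G' ∈ gOmega n d)
    (h : labP u v G = labP u v G') : adjN G u v = adjN G' u v := by
  have key : ∀ H : SimpleGraph (Fin n), H ∈ gOmega n d →
      d u + d v = 2 * adjN H u v
        + ∑ x ∈ (Finset.univ.erase u).erase v, (adjN H x u + adjN H x v) := by
    intro H hH
    have e1 := degree_eq_sum H u
    have e2 := degree_eq_sum H v
    rw [mem_gOmega.mp hH u, sum_split_pair huv, adjN_self] at e1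
    rw [mem_gOmega.mp hH v, sum_split_pair huv, adjN_self, adjN_comm H v u] at e2
    rw [Finset.sum_add_distrib]
    have e3 : ∑ x ∈ (Finset.univ.erase u).erase v, adjN H x u
        = ∑ x ∈ (Finset.univ.erase u).erase v, adjN H u x :=
      Finset.sum_congr rfl (fun x _ => adjN_comm H x u)
    have e4 : ∑ x ∈ (Finset.univ.erase u).erase v, adjN H x v
        = ∑ x ∈ (Finset.univ.erase u).erase v, adjN H v x :=
      Finset.sum_congr rfl (fun x _ => adjN_comm H x v)
    omega
  have k1 := key G hG
  have k2 := key G' hG'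
  have e5 : ∑ x ∈ (Finset.univ.erase u).erase v, (adjN G x u + adjN G x v)
      = ∑ x ∈ (Finset.univ.erase u).erase v, (adjN G' x u + adjN G' x v) := by
    apply Finset.sum_congr rfl
    intro x hx
    rw [Finset.mem_erase, Finset.mem_erase] at hx
    exact pairsum_eq_of_labP huv hG hG' h hx.2.1 hx.1
  omega

theorem adj_pair_iff_of_labP {d : Fin n → ℕ} {u v : Fin n} (huv : u ≠ v)
    {G G' : SimpleGraph (Fin n)} (hG : G ∈ gOmega n d) (hG' : G' ∈ gOmega n d)
    (h : labP u v G = labP u v G') : G.Adj u v ↔ G'.Adj u v := by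
  have e := adjN_pair_eq_of_labP huv hG hG' h
  rw [← adjN_eq_one_iff, ← adjN_eq_one_iff, e]

/-- `yB` written through the column sums of the block -/
theorem yB_cols (u v w z : Fin n) (G : SimpleGraph (Fin n)) :
    yB u v w z G = (adjN G w u + adjN G w v) + (adjN G z u + adjN G z v) := by
  unfold yB
  rw [adjN_comm G w u, adjN_comm G w v, adjN_comm G z u, adjN_comm G z v]
  ring

/-- `yB` written through the row sums of the block -/
theorem yB_rows (u v w z : Fin n) (G : SimpleGraph (Fin n)) :
    yB u v w z G = (adjN G u w + adjN G u z) + (adjN G v w + adjN G v z) := by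
  unfold yB
  ring

/-- the number of edges between the two pairs is a function of the label of the first pair -/
theorem yB_eq_of_labP_left {d : Fin n → ℕ} {u v w z : Fin n} (huv : u ≠ v)
    (hwu : w ≠ u) (hwv : w ≠ v) (hzu : z ≠ u) (hzv : z ≠ v)
    {G G' : SimpleGraph (Fin n)} (hG : G ∈ gOmega n d) (hG' : G' ∈ gOmega n d)
    (h : labP u v G = labP u v G') : yB u v w z G = yB u v w z G' := by
  rw [yB_cols, yB_cols, pairsum_eq_of_labP huv hG hG' h hwu hwv,
    pairsum_eq_of_labP huv hG hG' h hzu hzv]

/-- the number of edges between the two pairs is a function of the label of the second pair -/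
theorem yB_eq_of_labP_right {d : Fin n → ℕ} {u v w z : Fin n} (hwz : w ≠ z)
    (huw : u ≠ w) (huz : u ≠ z) (hvw : v ≠ w) (hvz : v ≠ z)
    {G G' : SimpleGraph (Fin n)} (hG : G ∈ gOmega n d) (hG' : G' ∈ gOmega n d)
    (h : labP w z G = labP w z G') : yB u v w z G = yB u v w z G' := by
  rw [yB_rows, yB_rows, pairsum_eq_of_labP hwz hG hG' h huw huz,
    pairsum_eq_of_labP hwz hG hG' h hvw hvz]

end KTVG.H6
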