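import Vale.Agent.Helper16.KTV.Bridge

/-!
# Commuting conditional expectations from a rectangle map (problem P335)

Abstract finite lemmas on the conditional expectations `KTV.cexpL`:

* `cexpL_comm_of_rect`: if for every `x` and all `a` in the `lab`-class of `x` and `b` in
  the `lab'`-class of `x` the `lab'`-class of `a` and the `lab`-class of `b` meet in exactly
  one point `mix a b`, then the two conditional expectations commute;
* `cross_nonneg_of_comm`: for commuting conditional expectations the cross term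
  `sum (f - E f) * (f - E' f)` is nonnegative;
* `cexpL_filter_eq`: the conditional expectation over a union of classes.
-/

namespace KTVG.H6

open Finset Matrix KTV

section Rect

variable {X Λ Λ' : Type*} [DecidableEq Λ] [DecidableEq Λ']

omit [DecidableEq Λ] in
/-- inner average along the second label, rewritten through the rectangle map -/
theorem cexpL_rect_inner (Ω : Finset X) (lab : X → Λ) (lab' : X → Λ') (mix : X → X → X)
    (h1 : ∀ x ∈ Ω, ∀ a ∈ Ω, ∀ b ∈ Ω, lab a = lab x → lab' b = lab' x →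
      mix a b ∈ Ω ∧ lab' (mix a b) = lab' a ∧ lab (mix a b) = lab b)
    (h2 : ∀ x ∈ Ω, ∀ a ∈ Ω, ∀ b ∈ Ω, lab a = lab x → lab' b = lab' x →
      ∀ m ∈ Ω, lab' m = lab' a → lab m = lab b → m = mix a b)
    (f : X → ℝ) {x a : X} (hx : x ∈ Ω) (ha : a ∈ Ω) (hax : lab a = lab x) :
    cexpL Ω lab' f a = (∑ b ∈ Ω.filter (fun b => lab' b = lab' x), f (mix a b)) /
      ((Ω.filter (fun b => lab' b = lab' x)).card : ℝ) := by
  rw [cexpL_eq]
  have hsum : ∑ b ∈ Ω.filter (fun b => lab' b = lab' x), f (mix a b)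
      = ∑ m ∈ Ω.filter (fun m => lab' m = lab' a), f m := by
    apply Finset.sum_bij (fun b _ => mix a b)
    · intro b hb
      rw [Finset.mem_filter] at hb ⊢
      obtain ⟨h, h', -⟩ := h1 x hx a ha b hb.1 hax hb.2
      exact ⟨h, h'⟩
    · intro b1 hb1 b2 hb2 he
      rw [Finset.mem_filter] at hb1 hb2
      obtain ⟨hm1, hm1', hm1l⟩ := h1 x hx a ha b1 hb1.1 hax hb1.2
      obtain ⟨hm2, hm2', hm2l⟩ := h1 x hx a ha b2 hb2.1 hax hb2.2
      have e1 := h2 a ha x hx (mix a b1) hm1 hax.symm hm1' b1 hb1.1 hb1.2 hm1l.symm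
      have e2 := h2 a ha x hx (mix a b1) hm1 hax.symm hm1' b2 hb2.1 hb2.2
        (by rw [he]; exact hm2l.symm)
      rw [e1, e2]
    · intro m hm
      rw [Finset.mem_filter] at hm
      obtain ⟨hb, hb', hbl⟩ := h1 a ha x hx m hm.1 hax.symm hm.2
      refine ⟨mix x m, Finset.mem_filter.mpr ⟨hb, hb'⟩, ?_⟩
      exact (h2 x hx a ha (mix x m) hb hax hb' m hm.1 hm.2 hbl.symm).symm
    · intro b _
      rfl
  have hcard : (Ω.filter (fun b => lab' b = lab' x)).card
      = (Ω.filter (fun m => lab' m = lab' a)).card := by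
    apply Finset.card_bij (fun b _ => mix a b)
    · intro b hb
      rw [Finset.mem_filter] at hb ⊢
      obtain ⟨h, h', -⟩ := h1 x hx a ha b hb.1 hax hb.2
      exact ⟨h, h'⟩
    · intro b1 hb1 b2 hb2 he
      rw [Finset.mem_filter] at hb1 hb2
      obtain ⟨hm1, hm1', hm1l⟩ := h1 x hx a ha b1 hb1.1 hax hb1.2
      obtain ⟨hm2, hm2', hm2l⟩ := h1 x hx a ha b2 hb2.1 hax hb2.2
      have e1 := h2 a ha x hx (mix a b1) hm1 hax.symm hm1' b1 hb1.1 hb1.2 hm1l.symm
      have e2 := h2 a ha x hx (mix a b1) hm1 hax.symm hm1' b2 hb2.1 hb2.2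
        (by rw [he]; exact hm2l.symm)
      rw [e1, e2]
    · intro m hm
      rw [Finset.mem_filter] at hm
      obtain ⟨hb, hb', hbl⟩ := h1 a ha x hx m hm.1 hax.symm hm.2
      refine ⟨mix x m, Finset.mem_filter.mpr ⟨hb, hb'⟩, ?_⟩
      exact (h2 x hx a ha (mix x m) hb hax hb' m hm.1 hm.2 hbl.symm).symm
  rw [hsum, hcard]

omit [DecidableEq Λ'] in
/-- inner average along the first label, rewritten through the rectangle map -/
theorem cexpL_rect_inner' (Ω : Finset X) (lab : X → Λ) (lab' : X → Λ') (mix : X → X → X)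
    (h1 : ∀ x ∈ Ω, ∀ a ∈ Ω, ∀ b ∈ Ω, lab a = lab x → lab' b = lab' x →
      mix a b ∈ Ω ∧ lab' (mix a b) = lab' a ∧ lab (mix a b) = lab b)
    (h2 : ∀ x ∈ Ω, ∀ a ∈ Ω, ∀ b ∈ Ω, lab a = lab x → lab' b = lab' x →
      ∀ m ∈ Ω, lab' m = lab' a → lab m = lab b → m = mix a b)
    (f : X → ℝ) {x b : X} (hx : x ∈ Ω) (hb : b ∈ Ω) (hbx : lab' b = lab' x) :
    cexpL Ω lab f b = (∑ a ∈ Ω.filter (fun a => lab a = lab x), f (mix a b)) /
      ((Ω.filter (fun a => lab a = lab x)).card : ℝ) := by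
  rw [cexpL_eq]
  have hsum : ∑ a ∈ Ω.filter (fun a => lab a = lab x), f (mix a b)
      = ∑ m ∈ Ω.filter (fun m => lab m = lab b), f m := by
    apply Finset.sum_bij (fun a _ => mix a b)
    · intro a ha
      rw [Finset.mem_filter] at ha ⊢
      obtain ⟨h, -, h'⟩ := h1 x hx a ha.1 b hb ha.2 hbx
      exact ⟨h, h'⟩
    · intro a1 ha1 a2 ha2 he
      rw [Finset.mem_filter] at ha1 ha2
      obtain ⟨hm1, hm1', hm1l⟩ := h1 x hx a1 ha1.1 b hb ha1.2 hbx
      obtain ⟨hm2, hm2', hm2l⟩ := h1 x hx a2 ha2.1 b hb ha2.2 hbx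
      have e1 := h2 b hb (mix a1 b) hm1 x hx hm1l hbx.symm a1 ha1.1 hm1'.symm ha1.2
      have e2 := h2 b hb (mix a1 b) hm1 x hx hm1l hbx.symm a2 ha2.1
        (by rw [he]; exact hm2'.symm) ha2.2
      rw [e1, e2]
    · intro m hm
      rw [Finset.mem_filter] at hm
      obtain ⟨ha, ha', hal⟩ := h1 b hb m hm.1 x hx hm.2 hbx.symm
      refine ⟨mix m x, Finset.mem_filter.mpr ⟨ha, hal⟩, ?_⟩
      exact (h2 x hx (mix m x) ha b hb hal hbx m hm.1 ha'.symm hm.2).symm
    · intro a _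
      rfl
  have hcard : (Ω.filter (fun a => lab a = lab x)).card
      = (Ω.filter (fun m => lab m = lab b)).card := by
    apply Finset.card_bij (fun a _ => mix a b)
    · intro a ha
      rw [Finset.mem_filter] at ha ⊢
      obtain ⟨h, -, h'⟩ := h1 x hx a ha.1 b hb ha.2 hbx
      exact ⟨h, h'⟩
    · intro a1 ha1 a2 ha2 he
      rw [Finset.mem_filter] at ha1 ha2
      obtain ⟨hm1, hm1', hm1l⟩ := h1 x hx a1 ha1.1 b hb ha1.2 hbx
      obtain ⟨hm2, hm2', hm2l⟩ := h1 x hx a2 ha2.1 b hb ha2.2 hbx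
      have e1 := h2 b hb (mix a1 b) hm1 x hx hm1l hbx.symm a1 ha1.1 hm1'.symm ha1.2
      have e2 := h2 b hb (mix a1 b) hm1 x hx hm1l hbx.symm a2 ha2.1
        (by rw [he]; exact hm2'.symm) ha2.2
      rw [e1, e2]
    · intro m hm
      rw [Finset.mem_filter] at hm
      obtain ⟨ha, ha', hal⟩ := h1 b hb m hm.1 x hx hm.2 hbx.symm
      refine ⟨mix m x, Finset.mem_filter.mpr ⟨ha, hal⟩, ?_⟩
      exact (h2 x hx (mix m x) ha b hb hal hbx m hm.1 ha'.symm hm.2).symm
  rw [hsum, hcard]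

/-- **Rectangle criterion**: if the `lab'`-class of `a` and the `lab`-class of `b` meet in
exactly one point `mix a b` whenever `a`, `b` lie in the `lab`-class resp. `lab'`-class of a
common point, then the two conditional expectations commute. -/
theorem cexpL_comm_of_rect (Ω : Finset X) (lab : X → Λ) (lab' : X → Λ') (mix : X → X → X)
    (h1 : ∀ x ∈ Ω, ∀ a ∈ Ω, ∀ b ∈ Ω, lab a = lab x → lab' b = lab' x →
      mix a b ∈ Ω ∧ lab' (mix a b) = lab' a ∧ lab (mix a b) = lab b)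
    (h2 : ∀ x ∈ Ω, ∀ a ∈ Ω, ∀ b ∈ Ω, lab a = lab x → lab' b = lab' x →
      ∀ m ∈ Ω, lab' m = lab' a → lab m = lab b → m = mix a b)
    (f : X → ℝ) (x : X) (hx : x ∈ Ω) :
    cexpL Ω lab (cexpL Ω lab' f) x = cexpL Ω lab' (cexpL Ω lab f) x := by
  rw [cexpL_eq Ω lab (cexpL Ω lab' f) x, cexpL_eq Ω lab' (cexpL Ω lab f) x]
  have e1 : ∑ a ∈ Ω.filter (fun a => lab a = lab x), cexpL Ω lab' f a
      = ∑ a ∈ Ω.filter (fun a => lab a = lab x),
          (∑ b ∈ Ω.filter (fun b => lab' b = lab' x), f (mix a b)) /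
            ((Ω.filter (fun b => lab' b = lab' x)).card : ℝ) := by
    apply Finset.sum_congr rfl
    intro a ha
    rw [Finset.mem_filter] at ha
    exact cexpL_rect_inner Ω lab lab' mix h1 h2 f hx ha.1 ha.2
  have e2 : ∑ b ∈ Ω.filter (fun b => lab' b = lab' x), cexpL Ω lab f b
      = ∑ b ∈ Ω.filter (fun b => lab' b = lab' x),
          (∑ a ∈ Ω.filter (fun a => lab a = lab x), f (mix a b)) /
            ((Ω.filter (fun a => lab a = lab x)).card : ℝ) := by
    apply Finset.sum_congr rfl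
    intro b hb
    rw [Finset.mem_filter] at hb
    exact cexpL_rect_inner' Ω lab lab' mix h1 h2 f hx hb.1 hb.2
  rw [e1, e2, ← Finset.sum_div, ← Finset.sum_div, Finset.sum_comm, div_div, div_div, mul_comm]

end Rect

section Ring

variable {R : Type*} [Ring R]

theorem idem_mul_comm {p q : R} (hp : p * p = p) (hq : q * q = q) (hpq : p * q = q * p) :
    (p * q) * (p * q) = p * q := by
  calc (p * q) * (p * q) = p * (q * p) * q := by noncomm_ring
    _ = p * (p * q) * q := by rw [hpq]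
    _ = (p * p) * (q * q) := by noncomm_ring
    _ = p * q := by rw [hp, hq]

theorem idem_compl {p : R} (hp : p * p = p) : (1 - p) * (1 - p) = 1 - p := by
  have : (1 - p) * (1 - p) = 1 - p - p + p * p := by noncomm_ring
  rw [this, hp]
  noncomm_ring

theorem compl_comm {p q : R} (hpq : p * q = q * p) : (1 - p) * (1 - q) = (1 - q) * (1 - p) := by
  have e1 : (1 - p) * (1 - q) = 1 - p - q + p * q := by noncomm_ring
  have e2 : (1 - q) * (1 - p) = 1 - p - q + q * p := by noncomm_ring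
  rw [e1, e2, hpq]

end Ring

section Cross

variable {X Λ Λ' : Type*} [DecidableEq X] [DecidableEq Λ] [DecidableEq Λ']

/-- a symmetric matrix moves across the dot product -/
theorem symm_dot' {m : Type*} [Fintype m] (M : Matrix m m ℝ) (hM : Mᵀ = M) (f g : m → ℝ) :
    (M *ᵥ f) ⬝ᵥ g = f ⬝ᵥ (M *ᵥ g) := by
  rw [Matrix.dotProduct_mulVec, ← Matrix.vecMul_transpose, hM]

/-- for commuting conditional expectations the cross term is nonnegative -/
theorem cross_nonneg_of_comm (Ω : Finset X) (lab : X → Λ) (lab' : X → Λ')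
    (h : ∀ (f : X → ℝ) (x : X), x ∈ Ω →
      cexpL Ω lab (cexpL Ω lab' f) x = cexpL Ω lab' (cexpL Ω lab f) x)
    (f : X → ℝ) :
    0 ≤ ∑ x ∈ Ω, (f x - cexpL Ω lab f x) * (f x - cexpL Ω lab' f x) := by
  set P := PM Ω lab with hP
  set P' := PM Ω lab' with hP'
  have hc : P * P' = P' * P := PM_comm Ω lab lab' h
  have sP : Pᵀ = P := PM_transpose Ω lab
  have sP' : P'ᵀ = P' := PM_transpose Ω lab'
  have iP : P * P = P := PM_idem Ω lab
  have iP' : P' * P' = P' := PM_idem Ω lab'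
  have s1 : (1 - P)ᵀ = 1 - P := by
    rw [Matrix.transpose_sub, Matrix.transpose_one, sP]
  have s1' : (1 - P')ᵀ = 1 - P' := by
    rw [Matrix.transpose_sub, Matrix.transpose_one, sP']
  have cc : (1 - P) * (1 - P') = (1 - P') * (1 - P) := compl_comm hc
  set M : Matrix Ω Ω ℝ := (1 - P) * (1 - P') with hM
  have sM : Mᵀ = M := by
    rw [hM, Matrix.transpose_mul, s1, s1', ← cc]
  have iM : M * M = M := idem_mul_comm (idem_compl iP) (idem_compl iP') cc
  have hv1 : vec Ω (fun x => f x - cexpL Ω lab f x) = (1 - P) *ᵥ vec Ω f := by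
    rw [Matrix.sub_mulVec, Matrix.one_mulVec, hP, PM_mulVec]
    rfl
  have hv2 : vec Ω (fun x => f x - cexpL Ω lab' f x) = (1 - P') *ᵥ vec Ω f := by
    rw [Matrix.sub_mulVec, Matrix.one_mulVec, hP', PM_mulVec]
    rfl
  have key : ∑ x ∈ Ω, (f x - cexpL Ω lab f x) * (f x - cexpL Ω lab' f x)
      = (M *ᵥ vec Ω f) ⬝ᵥ (M *ᵥ vec Ω f) := by
    rw [← vec_dot, hv1, hv2]
    have a1 : ((1 - P) *ᵥ vec Ω f) ⬝ᵥ ((1 - P') *ᵥ vec Ω f)
        = vec Ω f ⬝ᵥ (M *ᵥ vec Ω f) := by
      rw [symm_dot' (1 - P) s1, Matrix.mulVec_mulVec]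
    have a2 : (M *ᵥ vec Ω f) ⬝ᵥ (M *ᵥ vec Ω f) = vec Ω f ⬝ᵥ (M *ᵥ vec Ω f) := by
      rw [symm_dot' M sM, Matrix.mulVec_mulVec, iM]
    rw [a1, a2]
  rw [key]
  exact Finset.sum_nonneg (fun x _ => mul_self_nonneg _)

end Cross

section Filter

variable {X Λ : Type*} [DecidableEq Λ]

/-- conditional expectation over a subset that is a union of classes -/
theorem cexpL_filter_eq (Ω : Finset X) (lab : X → Λ) (p : X → Prop) [DecidablePred p]
    (hp : ∀ x ∈ Ω, ∀ y ∈ Ω, lab x = lab y → (p x ↔ p y)) (f : X → ℝ) {x : X}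
    (hx : x ∈ Ω) (hpx : p x) :
    cexpL (Ω.filter p) lab f x = cexpL Ω lab f x := by
  rw [cexpL_eq, cexpL_eq]
  have e : (Ω.filter p).filter (fun y => lab y = lab x) = Ω.filter (fun y => lab y = lab x) := by
    ext y
    simp only [Finset.mem_filter]
    constructor
    · rintro ⟨⟨h1, -⟩, h3⟩
      exact ⟨h1, h3⟩
    · rintro ⟨h1, h3⟩
      exact ⟨⟨h1, (hp y h1 x hx h3).mpr hpx⟩, h3⟩
  rw [e]

end Filter

end KTVG.H6
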