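import Vale.Agent.Helper6.KTVG.PairBasics
import Vale.Agent.Helper6.KTVG.RectComm

/-!
# The cross term of two disjoint pairs off the critical block size (problem P335)

For two disjoint vertex pairs `{u,v}`, `{w,z}` let `yB` be the number of edges between them.
On the graphs with `yB ≠ 2` the 2x2 block between the pairs is determined by its row and
column sums, so the fibre of `{w,z}` through `A` and the fibre of `{u,v}` through `B` meet in
exactly one graph `mixG A B` (whenever `A`, `B` lie in the `{u,v}`-fibre resp. `{w,z}`-fibre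
of a common graph).  Hence the two pair heat baths commute there and the cross term
`sum (f - E_uv f) * (f - E_wz f)` over the graphs with `yB ≠ 2` is nonnegative.
-/

namespace KTVG.H6

open Finset Vale.Agent.Helper13.Switch KTV
open Classical

variable {n : ℕ}

/-- membership in the pair `{u, v}` -/
def inP (u v x : Fin n) : Prop := x = u ∨ x = v

theorem not_inP {u v x : Fin n} (h1 : x ≠ u) (h2 : x ≠ v) : ¬ inP u v x :=
  fun h => h.elim h1 h2

theorem ne_of_not_inP {u v x : Fin n} (h : ¬ inP u v x) : x ≠ u ∧ x ≠ v :=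
  ⟨fun h1 => h (Or.inl h1), fun h2 => h (Or.inr h2)⟩

/-- four distinct vertices -/
structure Dist4 (u v w z : Fin n) : Prop where
  uv : u ≠ v
  uw : u ≠ w
  uz : u ≠ z
  vw : v ≠ w
  vz : v ≠ z
  wz : w ≠ z

theorem Dist4.disj {u v w z : Fin n} (hD : Dist4 u v w z) {x : Fin n} (hx : inP u v x) :
    ¬ inP w z x := by
  rcases hx with rfl | rfl
  · exact not_inP hD.uw hD.uz
  · exact not_inP hD.vw hD.vz

theorem Dist4.disj' {u v w z : Fin n} (hD : Dist4 u v w z) {x : Fin n} (hx : inP w z x) :
    ¬ inP u v x := fun h => hD.disj h hx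

/-- the rule for the block slots of the mixed graph: the unique 2x2 block with the row sums
of `A` and the column sums of `B` (when the number of ones is not 2) -/
def blk (u v w z : Fin n) (A B : SimpleGraph (Fin n)) (x y : Fin n) : Prop :=
  yB u v w z A + 2 < 2 * ((adjN A x w + adjN A x z) + (adjN B u y + adjN B v y))

/-- the mixed graph: slots touching `{u,v}` but not `{w,z}` from `A`, slots avoiding `{u,v}`
from `B`, block slots by the rule `blk` -/
def mixG (u v w z : Fin n) (A B : SimpleGraph (Fin n)) : SimpleGraph (Fin n) where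
  Adj x y := x ≠ y ∧
    ((inP u v x ∧ inP w z y ∧ blk u v w z A B x y) ∨
     (inP w z x ∧ inP u v y ∧ blk u v w z A B y x) ∨
     ((inP u v x ∨ inP u v y) ∧ ¬ (inP w z x ∨ inP w z y) ∧ A.Adj x y) ∨
     (¬ (inP u v x ∨ inP u v y) ∧ B.Adj x y))
  symm := ⟨by
    rintro x y ⟨hne, h⟩
    refine ⟨hne.symm, ?_⟩
    rcases h with h | h | h | h
    · exact Or.inr (Or.inl ⟨h.2.1, h.1, h.2.2⟩)
    · exact Or.inl ⟨h.2.1, h.1, h.2.2⟩
    · exact Or.inr (Or.inr (Or.inl ⟨h.1.symm, fun hh => h.2.1 hh.symm, h.2.2.symm⟩))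
    · exact Or.inr (Or.inr (Or.inr ⟨fun hh => h.1 hh.symm, h.2.symm⟩))⟩
  loopless := ⟨fun x h => h.1 rfl⟩

section Mix

variable {u v w z : Fin n}

theorem mix_adj_block (A B : SimpleGraph (Fin n)) {x y : Fin n}
    (hx : inP u v x) (hy : inP w z y) (hx' : ¬ inP w z x) (hne : x ≠ y) :
    (mixG u v w z A B).Adj x y ↔ blk u v w z A B x y := by
  constructor
  · rintro ⟨-, h | h | h | h⟩
    · exact h.2.2
    · exact absurd h.1 hx'
    · exact absurd (Or.inr hy) h.2.1
    · exact absurd (Or.inl hx) h.1
  · intro h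
    exact ⟨hne, Or.inl ⟨hx, hy, h⟩⟩

theorem mix_adj_A (A B : SimpleGraph (Fin n)) {x y : Fin n}
    (h1 : inP u v x ∨ inP u v y) (h2 : ¬ inP w z x) (h3 : ¬ inP w z y) :
    (mixG u v w z A B).Adj x y ↔ A.Adj x y := by
  constructor
  · rintro ⟨-, h | h | h | h⟩
    · exact absurd h.2.1 h3
    · exact absurd h.1 h2
    · exact h.2.2
    · exact absurd h1 h.1
  · intro h
    exact ⟨A.ne_of_adj h, Or.inr (Or.inr (Or.inl ⟨h1, fun hh => hh.elim h2 h3, h⟩))⟩

theorem mix_adj_B (A B : SimpleGraph (Fin n)) {x y : Fin n}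
    (h1 : ¬ inP u v x) (h2 : ¬ inP u v y) :
    (mixG u v w z A B).Adj x y ↔ B.Adj x y := by
  constructor
  · rintro ⟨-, h | h | h | h⟩
    · exact absurd h.1 h1
    · exact absurd h.2.1 h2
    · exact absurd h.1 (fun hh => hh.elim h1 h2)
    · exact h.2
  · intro h
    exact ⟨B.ne_of_adj h, Or.inr (Or.inr (Or.inr ⟨fun hh => hh.elim h1 h2, h⟩))⟩

/-- the block rule has the row sums of `A` -/
theorem block_row {A B : SimpleGraph (Fin n)} (hyA : yB u v w z A ≠ 2)
    (hyB : yB u v w z B = yB u v w z A) {c : Fin n} (hc : inP u v c) :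
    (if blk u v w z A B c w then 1 else 0) + (if blk u v w z A B c z then 1 else 0)
      = adjN A c w + adjN A c z := by
  have a1 := adjN_le_one A u w
  have a2 := adjN_le_one A u z
  have a3 := adjN_le_one A v w
  have a4 := adjN_le_one A v z
  have b1 := adjN_le_one B u w
  have b2 := adjN_le_one B u z
  have b3 := adjN_le_one B v w
  have b4 := adjN_le_one B v z
  unfold yB at hyA hyB
  unfold blk yB
  rcases hc with hc | hc <;> rw [hc] <;> split_ifs <;> omega

/-- the block rule has the column sums of `B` -/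
theorem block_col {A B : SimpleGraph (Fin n)} (hyA : yB u v w z A ≠ 2)
    (hyB : yB u v w z B = yB u v w z A) {c : Fin n} (hc : inP w z c) :
    (if blk u v w z A B u c then 1 else 0) + (if blk u v w z A B v c then 1 else 0)
      = adjN B u c + adjN B v c := by
  have a1 := adjN_le_one A u w
  have a2 := adjN_le_one A u z
  have a3 := adjN_le_one A v w
  have a4 := adjN_le_one A v z
  have b1 := adjN_le_one B u w
  have b2 := adjN_le_one B u z
  have b3 := adjN_le_one B v w
  have b4 := adjN_le_one B v z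
  unfold yB at hyA hyB
  unfold blk yB
  rcases hc with hc | hc <;> rw [hc] <;> split_ifs <;> omega

theorem adjN_mix_block (hD : Dist4 u v w z) (A B : SimpleGraph (Fin n)) {x y : Fin n}
    (hx : inP u v x) (hy : inP w z y) :
    adjN (mixG u v w z A B) x y = if blk u v w z A B x y then 1 else 0 := by
  have hne : x ≠ y := fun h => hD.disj hx (h ▸ hy)
  unfold adjN
  exact if_congr (mix_adj_block A B hx hy (hD.disj hx) hne) rfl rfl

/-- the mixed graph has the prescribed degrees -/
theorem mix_mem (hD : Dist4 u v w z) {d : Fin n → ℕ} {G A B : SimpleGraph (Fin n)}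
    (hG : G ∈ gOmega n d) (hA : A ∈ gOmega n d) (hB : B ∈ gOmega n d)
    (hAG : labP u v A = labP u v G) (hBG : labP w z B = labP w z G)
    (hy : yB u v w z G ≠ 2) : mixG u v w z A B ∈ gOmega n d := by
  have hyAG : yB u v w z A = yB u v w z G :=
    yB_eq_of_labP_left hD.uv hD.uw.symm hD.vw.symm hD.uz.symm hD.vz.symm hA hG hAG
  have hyBG : yB u v w z B = yB u v w z G :=
    yB_eq_of_labP_right hD.wz hD.uw hD.uz hD.vw hD.vz hB hG hBG
  have hyA : yB u v w z A ≠ 2 := by rw [hyAG]; exact hy
  have hyB : yB u v w z B = yB u v w z A := by rw [hyBG, hyAG]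
  rw [mem_gOmega]
  intro c
  by_cases hc : inP u v c
  · -- a vertex of the first pair: its row is the row of `A`
    have hc' : ¬ inP w z c := hD.disj hc
    rw [degree_eq_sum, sum_split_pair hD.wz]
    have dA := degree_eq_sum A c
    rw [mem_gOmega.mp hA c, sum_split_pair hD.wz] at dA
    have e1 := adjN_mix_block hD A B hc (Or.inl rfl : inP w z w)
    have e2 := adjN_mix_block hD A B hc (Or.inr rfl : inP w z z)
    have e3 : ∑ t ∈ (Finset.univ.erase w).erase z, adjN (mixG u v w z A B) c t
        = ∑ t ∈ (Finset.univ.erase w).erase z, adjN A c t := by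
      apply Finset.sum_congr rfl
      intro t ht
      rw [Finset.mem_erase, Finset.mem_erase] at ht
      exact adjN_congr (mix_adj_A A B (Or.inl hc) hc' (not_inP ht.2.1 ht.1))
    have e4 := block_row hyA hyB hc
    omega
  · by_cases hc' : inP w z c
    · -- a vertex of the second pair: its row is the row of `B`
      rw [degree_eq_sum, sum_split_pair hD.uv]
      have dB := degree_eq_sum B c
      rw [mem_gOmega.mp hB c, sum_split_pair hD.uv] at dB
      have e1 := adjN_mix_block hD A B (Or.inl rfl : inP u v u) hc'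
      have e2 := adjN_mix_block hD A B (Or.inr rfl : inP u v v) hc'
      rw [adjN_comm _ u c] at e1
      rw [adjN_comm _ v c] at e2
      have e3 : ∑ t ∈ (Finset.univ.erase u).erase v, adjN (mixG u v w z A B) c t
          = ∑ t ∈ (Finset.univ.erase u).erase v, adjN B c t := by
        apply Finset.sum_congr rfl
        intro t ht
        rw [Finset.mem_erase, Finset.mem_erase] at ht
        exact adjN_congr (mix_adj_B A B hc (not_inP ht.2.1 ht.1))
      have e4 := block_col hyA hyB hc'
      rw [adjN_comm B u c, adjN_comm B v c] at e4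
      omega
    · -- an outside vertex
      obtain ⟨hcu, hcv⟩ := ne_of_not_inP hc
      obtain ⟨hcw, hcz⟩ := ne_of_not_inP hc'
      rw [degree_eq_sum, sum_split_pair hD.uv]
      have dB := degree_eq_sum B c
      rw [mem_gOmega.mp hB c, sum_split_pair hD.uv] at dB
      have e1 : adjN (mixG u v w z A B) c u = adjN A c u :=
        adjN_congr (mix_adj_A A B (Or.inr (Or.inl rfl)) hc' (not_inP hD.uw hD.uz))
      have e2 : adjN (mixG u v w z A B) c v = adjN A c v :=
        adjN_congr (mix_adj_A A B (Or.inr (Or.inr rfl)) hc' (not_inP hD.vw hD.vz))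
      have e3 : ∑ t ∈ (Finset.univ.erase u).erase v, adjN (mixG u v w z A B) c t
          = ∑ t ∈ (Finset.univ.erase u).erase v, adjN B c t := by
        apply Finset.sum_congr rfl
        intro t ht
        rw [Finset.mem_erase, Finset.mem_erase] at ht
        exact adjN_congr (mix_adj_B A B hc (not_inP ht.2.1 ht.1))
      have e4 := pairsum_eq_of_labP hD.uv hA hG hAG hcu hcv
      have e5 : adjN B c u = adjN G c u := adjN_congr (labP_adj hBG hcw hcz hD.uw hD.uz)
      have e6 : adjN B c v = adjN G c v := adjN_congr (labP_adj hBG hcw hcz hD.vw hD.vz)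
      omega

/-- the mixed graph lies in the `{w,z}`-fibre of `A` -/
theorem mix_labP_wz {G A B : SimpleGraph (Fin n)}
    (hAG : labP u v A = labP u v G) (hBG : labP w z B = labP w z G) :
    labP w z (mixG u v w z A B) = labP w z A := by
  apply labP_eq_of_adj
  intro x y hxw hxz hyw hyz
  by_cases he : inP u v x ∨ inP u v y
  · exact mix_adj_A A B he (not_inP hxw hxz) (not_inP hyw hyz)
  · have hx := ne_of_not_inP (fun h => he (Or.inl h))
    have hy := ne_of_not_inP (fun h => he (Or.inr h))
    rw [mix_adj_B A B (fun h => he (Or.inl h)) (fun h => he (Or.inr h))]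
    exact (labP_adj hBG hxw hxz hyw hyz).trans (labP_adj hAG hx.1 hx.2 hy.1 hy.2).symm

/-- the mixed graph lies in the `{u,v}`-fibre of `B` -/
theorem mix_labP_uv (A B : SimpleGraph (Fin n)) :
    labP u v (mixG u v w z A B) = labP u v B := by
  apply labP_eq_of_adj
  intro x y hxu hxv hyu hyv
  exact mix_adj_B A B (not_inP hxu hxv) (not_inP hyu hyv)

/-- a graph in the `{w,z}`-fibre of `A` and the `{u,v}`-fibre of `B` has the block given by
the rule `blk` -/
theorem block_unique (hD : Dist4 u v w z) {d : Fin n → ℕ} {A B N : SimpleGraph (Fin n)}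
    (hA : A ∈ gOmega n d) (hB : B ∈ gOmega n d) (hN : N ∈ gOmega n d)
    (h1 : labP w z N = labP w z A) (h2 : labP u v N = labP u v B)
    (hyA : yB u v w z A ≠ 2) {x y : Fin n} (hx : inP u v x) (hy : inP w z y) :
    N.Adj x y ↔ blk u v w z A B x y := by
  have r1 := pairsum_eq_of_labP hD.wz hN hA h1 hD.uw hD.uz
  have r2 := pairsum_eq_of_labP hD.wz hN hA h1 hD.vw hD.vz
  have c1 := pairsum_eq_of_labP hD.uv hN hB h2 hD.uw.symm hD.vw.symm
  have c2 := pairsum_eq_of_labP hD.uv hN hB h2 hD.uz.symm hD.vz.symm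
  rw [adjN_comm N w u, adjN_comm N w v, adjN_comm B w u, adjN_comm B w v] at c1
  rw [adjN_comm N z u, adjN_comm N z v, adjN_comm B z u, adjN_comm B z v] at c2
  have n1 := adjN_le_one N u w
  have n2 := adjN_le_one N u z
  have n3 := adjN_le_one N v w
  have n4 := adjN_le_one N v z
  rw [← adjN_eq_one_iff]
  unfold yB at hyA
  unfold blk yB
  rcases hx with hx | hx <;> rcases hy with hy | hy <;> rw [hx, hy] <;> omega

/-- uniqueness of the mixed graph -/
theorem mix_unique (hD : Dist4 u v w z) {d : Fin n → ℕ} {A B N : SimpleGraph (Fin n)}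
    (hA : A ∈ gOmega n d) (hB : B ∈ gOmega n d) (hN : N ∈ gOmega n d)
    (h1 : labP w z N = labP w z A) (h2 : labP u v N = labP u v B)
    (hyA : yB u v w z A ≠ 2) : N = mixG u v w z A B := by
  ext x y
  by_cases he : inP u v x ∨ inP u v y
  · by_cases he' : inP w z x ∨ inP w z y
    · rcases he with hx | hy
      · have hy' : inP w z y := he'.resolve_left (hD.disj hx)
        have hne : x ≠ y := fun h => hD.disj hx (h ▸ hy')
        rw [mix_adj_block A B hx hy' (hD.disj hx) hne]
        exact block_unique hD hA hB hN h1 h2 hyA hx hy'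
      · have hx' : inP w z x := he'.resolve_right (hD.disj hy)
        have hne : y ≠ x := fun h => hD.disj hy (h ▸ hx')
        rw [SimpleGraph.adj_comm N x y, SimpleGraph.adj_comm (mixG u v w z A B) x y,
          mix_adj_block A B hy hx' (hD.disj hy) hne]
        exact block_unique hD hA hB hN h1 h2 hyA hy hx'
    · have hx := ne_of_not_inP (fun h => he' (Or.inl h))
      have hy := ne_of_not_inP (fun h => he' (Or.inr h))
      rw [mix_adj_A A B he (fun h => he' (Or.inl h)) (fun h => he' (Or.inr h))]
      exact labP_adj h1 hx.1 hx.2 hy.1 hy.2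
  · have hx := ne_of_not_inP (fun h => he (Or.inl h))
    have hy := ne_of_not_inP (fun h => he (Or.inr h))
    rw [mix_adj_B A B (fun h => he (Or.inl h)) (fun h => he (Or.inr h))]
    exact labP_adj h2 hx.1 hx.2 hy.1 hy.2

end Mix

section Main

variable {u v w z : Fin n}

/-- the graphs with degree vector `d` whose block between the two pairs does not carry
exactly two edges -/
noncomputable def OmOff2 (d : Fin n → ℕ) (u v w z : Fin n) : Finset (SimpleGraph (Fin n)) :=
  (gOmega n d).filter (fun G => ¬ yB u v w z G = 2)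

theorem mem_OmOff2 {d : Fin n → ℕ} {G : SimpleGraph (Fin n)} :
    G ∈ OmOff2 d u v w z ↔ G ∈ gOmega n d ∧ ¬ yB u v w z G = 2 := by
  unfold OmOff2
  rw [Finset.mem_filter]

/-- the two pair heat baths commute on the graphs with `yB ≠ 2` -/
theorem comm_off2 (hD : Dist4 u v w z) (d : Fin n → ℕ) (f : SimpleGraph (Fin n) → ℝ)
    (G : SimpleGraph (Fin n)) (hG : G ∈ OmOff2 d u v w z) :
    cexpL (OmOff2 d u v w z) (labP u v) (cexpL (OmOff2 d u v w z) (labP w z) f) G
      = cexpL (OmOff2 d u v w z) (labP w z) (cexpL (OmOff2 d u v w z) (labP u v) f) G := by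
  apply cexpL_comm_of_rect (OmOff2 d u v w z) (labP u v) (labP w z) (mixG u v w z)
  · intro x hx a ha b hb hax hbx
    rw [mem_OmOff2] at hx ha hb
    have hm := mix_mem hD hx.1 ha.1 hb.1 hax hbx hx.2
    have hl := mix_labP_wz (u := u) (v := v) (w := w) (z := z) hax hbx
    refine ⟨mem_OmOff2.mpr ⟨hm, ?_⟩, hl, mix_labP_uv a b⟩
    rw [yB_eq_of_labP_right hD.wz hD.uw hD.uz hD.vw hD.vz hm ha.1 hl]
    exact ha.2
  · intro x hx a ha b hb hax hbx m hm h1 h2
    rw [mem_OmOff2] at hx ha hb hm
    exact mix_unique hD ha.1 hb.1 hm.1 h1 h2 ha.2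
  · exact hG

/-- **The cross term off the critical block size is nonnegative.** -/
theorem cross_off2_nonneg (d : Fin n → ℕ) (huv : u ≠ v) (huw : u ≠ w) (huz : u ≠ z)
    (hvw : v ≠ w) (hvz : v ≠ z) (hwz : w ≠ z) (f : SimpleGraph (Fin n) → ℝ) :
    0 ≤ ∑ G ∈ (gOmega n d).filter (fun G => ¬ yB u v w z G = 2),
      (f G - cexpL (gOmega n d) (labP u v) f G) * (f G - cexpL (gOmega n d) (labP w z) f G) := by
  have hD : Dist4 u v w z := ⟨huv, huw, huz, hvw, hvz, hwz⟩
  have key := cross_nonneg_of_comm (OmOff2 d u v w z) (labP u v) (labP w z)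
    (fun f x hx => comm_off2 hD d f x hx) f
  have e : ∀ G ∈ OmOff2 d u v w z,
      (f G - cexpL (OmOff2 d u v w z) (labP u v) f G)
          * (f G - cexpL (OmOff2 d u v w z) (labP w z) f G)
        = (f G - cexpL (gOmega n d) (labP u v) f G)
          * (f G - cexpL (gOmega n d) (labP w z) f G) := by
    intro G hG
    rw [mem_OmOff2] at hG
    have e1 : cexpL (OmOff2 d u v w z) (labP u v) f G = cexpL (gOmega n d) (labP u v) f G := by
      unfold OmOff2
      apply cexpL_filter_eq (gOmega n d) (labP u v) (fun G => ¬ yB u v w z G = 2) _ f hG.1 hG.2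
      intro x hx y hy hxy
      rw [yB_eq_of_labP_left huv huw.symm hvw.symm huz.symm hvz.symm hx hy hxy]
    have e2 : cexpL (OmOff2 d u v w z) (labP w z) f G = cexpL (gOmega n d) (labP w z) f G := by
      unfold OmOff2
      apply cexpL_filter_eq (gOmega n d) (labP w z) (fun G => ¬ yB u v w z G = 2) _ f hG.1 hG.2
      intro x hx y hy hxy
      rw [yB_eq_of_labP_right hwz huw huz hvw hvz hx hy hxy]
    rw [e1, e2]
  rw [Finset.sum_congr rfl e] at key
  exact key

/-- the cross term of two disjoint pairs is at least its part on the graphs whose block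
carries exactly two edges -/
theorem crossE_ge_two (d : Fin n → ℕ) (huv : u ≠ v) (huw : u ≠ w) (huz : u ≠ z)
    (hvw : v ≠ w) (hvz : v ≠ z) (hwz : w ≠ z) (f : SimpleGraph (Fin n) → ℝ) :
    ∑ G ∈ (gOmega n d).filter (fun G => yB u v w z G = 2),
        (f G - cexpL (gOmega n d) (labP u v) f G) * (f G - cexpL (gOmega n d) (labP w z) f G)
      ≤ crossE (gOmega n d) u v w z f := by
  unfold crossE
  rw [← Finset.sum_filter_add_sum_filter_not (gOmega n d) (fun G => yB u v w z G = 2)]
  have h := cross_off2_nonneg d huv huw huz hvw hvz hwz f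
  linarith

end Main

end KTVG.H6
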