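import Vale.Agent.Helper6.KTVG.CrossOff2

/-!
# The module statement `KTVG.OddStmt` (problem P335, general graphs)

On the graphs with an odd number of edges between two disjoint pairs the two pair heat
baths commute, and the parity event is a union of fibres of the first pair.  (The
commutation is proved in `CrossOff2` on the larger event `yB ≠ 2`.)
-/

namespace KTVG.H6

open Finset Vale.Agent.Helper13.Switch KTV
open Classical

variable {n : ℕ}

/-- on the graphs with `yB ≠ 2` the two pair heat baths over the whole of `gOmega n d`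
commute -/
theorem comm_off2_full {u v w z : Fin n} (hD : Dist4 u v w z) (d : Fin n → ℕ)
    (f : SimpleGraph (Fin n) → ℝ) (G : SimpleGraph (Fin n)) (hG : G ∈ gOmega n d)
    (hy : ¬ yB u v w z G = 2) :
    cexpL (gOmega n d) (labP u v) (cexpL (gOmega n d) (labP w z) f) G
      = cexpL (gOmega n d) (labP w z) (cexpL (gOmega n d) (labP u v) f) G := by
  have hp1 : ∀ x ∈ gOmega n d, ∀ y ∈ gOmega n d, labP u v x = labP u v y →
      (¬ yB u v w z x = 2 ↔ ¬ yB u v w z y = 2) := by
    intro x hx y hy hxy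
    rw [yB_eq_of_labP_left hD.uv hD.uw.symm hD.vw.symm hD.uz.symm hD.vz.symm hx hy hxy]
  have hp2 : ∀ x ∈ gOmega n d, ∀ y ∈ gOmega n d, labP w z x = labP w z y →
      (¬ yB u v w z x = 2 ↔ ¬ yB u v w z y = 2) := by
    intro x hx y hy hxy
    rw [yB_eq_of_labP_right hD.wz hD.uw hD.uz hD.vw hD.vz hx hy hxy]
  have hGS : G ∈ OmOff2 d u v w z := mem_OmOff2.mpr ⟨hG, hy⟩
  have t1 : ∀ (g : SimpleGraph (Fin n) → ℝ) (x : SimpleGraph (Fin n)), x ∈ OmOff2 d u v w z →
      cexpL (OmOff2 d u v w z) (labP u v) g x = cexpL (gOmega n d) (labP u v) g x := by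
    intro g x hx
    rw [mem_OmOff2] at hx
    unfold OmOff2
    exact cexpL_filter_eq (gOmega n d) (labP u v) (fun G => ¬ yB u v w z G = 2) hp1 g hx.1 hx.2
  have t2 : ∀ (g : SimpleGraph (Fin n) → ℝ) (x : SimpleGraph (Fin n)), x ∈ OmOff2 d u v w z →
      cexpL (OmOff2 d u v w z) (labP w z) g x = cexpL (gOmega n d) (labP w z) g x := by
    intro g x hx
    rw [mem_OmOff2] at hx
    unfold OmOff2
    exact cexpL_filter_eq (gOmega n d) (labP w z) (fun G => ¬ yB u v w z G = 2) hp2 g hx.1 hx.2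
  have key := comm_off2 hD d f G hGS
  rw [t1 _ G hGS, t2 _ G hGS] at key
  have e1 : cexpL (gOmega n d) (labP u v) (cexpL (OmOff2 d u v w z) (labP w z) f) G
      = cexpL (gOmega n d) (labP u v) (cexpL (gOmega n d) (labP w z) f) G := by
    rw [← t1 _ G hGS, ← t1 _ G hGS]
    exact cexpL_congr (OmOff2 d u v w z) (labP u v) (fun x hx => t2 f x hx) G
  have e2 : cexpL (gOmega n d) (labP w z) (cexpL (OmOff2 d u v w z) (labP u v) f) G
      = cexpL (gOmega n d) (labP w z) (cexpL (gOmega n d) (labP u v) f) G := by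
    rw [← t2 _ G hGS, ← t2 _ G hGS]
    exact cexpL_congr (OmOff2 d u v w z) (labP w z) (fun x hx => t1 f x hx) G
  rw [e1, e2] at key
  exact key

/-- **Module statement M3b-i.** -/
theorem oddStmt (n : ℕ) (d : Fin n → ℕ) : KTVG.OddStmt n d := by
  intro u v w z hD4
  obtain ⟨huv, huw, huz, hvw, hvz, hwz⟩ := hD4
  have hD : Dist4 u v w z := ⟨huv, huw, huz, hvw, hvz, hwz⟩
  refine ⟨?_, ?_⟩
  · intro G hG G' hG' h
    unfold OddB
    rw [yB_eq_of_labP_left huv huw.symm hvw.symm huz.symm hvz.symm hG hG' h]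
  · intro f G hG hodd
    apply comm_off2_full hD d f G hG
    unfold OddB at hodd
    intro h2
    rw [h2] at hodd
    exact absurd hodd (by decide)

end KTVG.H6
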